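import Vale.Agent.P355.Mub
import Vale.Agent.P355.Three
import Vale.Agent.P355.ThF

namespace Vale.Agent.Results.P355.Zauner

theorem result :
    IsGreatest {k : ℕ | ∃ B : Fin k → OrthonormalBasis (Fin 6) ℂ (EuclideanSpace ℂ (Fin 6)),
      ∀ i j, i ≠ j → ∀ a b, ‖inner ℂ (B i a) (B j b)‖ ^ 2 = 1 / 6} 3 :=
  ⟨Vale.Agent.P355.Three.three,
    fun k h => h.elim fun B hB => Vale.Agent.P355.le_of_cert Vale.Agent.P355.Th.no k B hB⟩

end Vale.Agent.Results.P355.Zauner
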